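/-
Row 82 (S0109), WP-Ca: hyperplanes are null and relatively open pieces of the body have
positive mass, for the uniform probability measure on a convex body.
Statements verbatim from `Crest.Agent.Helper75.OT.Spec`.
-/
import Crest.Agent.Helper59.OT.Rho

set_option autoImplicit false

noncomputable section

open MeasureTheory Filter Topology
open scoped ENNReal NNReal RealInnerProductSpace

namespace Crest.Agent.Helper75.OT

open Crest.AnalysisR.OT

variable {d : ℕ}

/-- Hyperplanes are Lebesgue-null. -/
theorem volume_hyperplane (a : E d) (ha : a ≠ 0) (t : ℝ) :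
    volume {x : E d | ⟪x, a⟫ = t} = 0 := by
  set D : Submodule ℝ (E d) := (ℝ ∙ a)ᗮ with hD
  set x₀ : E d := (t / ‖a‖ ^ 2) • a with hx₀
  have hna : ‖a‖ ^ 2 ≠ 0 := by
    have : ‖a‖ ≠ 0 := norm_ne_zero_iff.mpr ha
    positivity
  have hx₀a : ⟪x₀, a⟫ = t := by
    rw [hx₀, real_inner_smul_left, real_inner_self_eq_norm_sq]
    field_simp
  have hsub : {x : E d | ⟪x, a⟫ = t} ⊆ (AffineSubspace.mk' x₀ D : Set (E d)) := by
    intro x hx
    rw [SetLike.mem_coe, AffineSubspace.mem_mk', vsub_eq_sub, hD,
      Submodule.mem_orthogonal_singleton_iff_inner_right, inner_sub_right,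
      real_inner_comm x a, real_inner_comm x₀ a, hx₀a]
    have : ⟪x, a⟫ = t := hx
    linarith
  have hne : AffineSubspace.mk' x₀ D ≠ ⊤ := by
    intro htop
    have hdir : D = ⊤ := by
      have := congrArg AffineSubspace.direction htop
      rwa [AffineSubspace.direction_mk', AffineSubspace.direction_top] at this
    have hmem : a ∈ D := by rw [hdir]; trivial
    rw [hD, Submodule.mem_orthogonal_singleton_iff_inner_right, real_inner_self_eq_norm_sq] at hmem
    exact hna hmem
  exact measure_mono_null hsub (Measure.addHaar_affineSubspace volume _ hne)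

/-- Hyperplanes are null. -/
theorem rho_hyperplane {K : Set (E d)} (a : E d) (ha : a ≠ 0) (t : ℝ) :
    (uniformProbOn K) {x | ⟪x, a⟫ = t} = 0 :=
  rho_ac K (volume_hyperplane a ha t)

/-- A relatively open nonempty piece of `K` has positive mass. -/
theorem rho_pos_of_open {K : Set (E d)} (hK : Body K) {U : Set (E d)} (hU : IsOpen U)
    (hne : (U ∩ K).Nonempty) : 0 < (uniformProbOn K) U := by
  obtain ⟨x, hxU, hxK⟩ := hne
  obtain ⟨y, hy⟩ := hK.inter
  -- points of the segment from `x` to `y` close to `x` lie in `U ∩ interior K`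
  have hcont : Continuous fun s : ℝ => x + s • (y - x) := by fun_prop
  have hU0 : (fun s : ℝ => x + s • (y - x)) ⁻¹' U ∈ 𝓝 (0 : ℝ) := by
    apply hcont.continuousAt.preimage_mem_nhds
    simpa using hU.mem_nhds hxU
  obtain ⟨ε, hε, hball⟩ := Metric.mem_nhds_iff.mp hU0
  set s : ℝ := min (ε / 2) 1 with hs
  have hs0 : 0 < s := lt_min (by positivity) one_pos
  have hs1 : s ≤ 1 := min_le_right _ _
  have hsε : s < ε := lt_of_le_of_lt (min_le_left _ _) (by linarith)
  have hz1 : x + s • (y - x) ∈ U := by
    have : s ∈ Metric.ball (0 : ℝ) ε := by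
      rw [Metric.mem_ball, Real.dist_eq, sub_zero, abs_of_pos hs0]
      exact hsε
    exact hball this
  have hz2 : x + s • (y - x) ∈ interior K :=
    hK.convex.add_smul_sub_mem_interior hxK hy ⟨hs0, hs1⟩
  have hpos : 0 < volume (U ∩ interior K) :=
    (hU.inter isOpen_interior).measure_pos volume ⟨_, hz1, hz2⟩
  have hpos2 : 0 < volume (U ∩ K) :=
    hpos.trans_le (measure_mono (Set.inter_subset_inter_right _ interior_subset))
  unfold uniformProbOn
  rw [Measure.smul_apply, Measure.restrict_apply hU.measurableSet, smul_eq_mul]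
  exact ENNReal.mul_pos (ENNReal.inv_ne_zero.mpr (vol_ne_top hK)) hpos2.ne'

end Crest.Agent.Helper75.OT
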