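/-
Row 82 (S0109), WP-Ca: cell masses depend continuously on the weights.
Statement verbatim from `Crest.Agent.Helper75.OT.Spec.continuous_gM`.
-/
import Crest.Agent.Helper59.OT.Rho2

set_option autoImplicit false

noncomputable section

open MeasureTheory Filter Topology
open scoped ENNReal NNReal RealInnerProductSpace

namespace Crest.Agent.Helper75.OT

open Crest.AnalysisR.OT

variable {d : ℕ}

namespace ContGMAux

theorem isClosed_Lag' {K : Set (E d)} (hK : IsClosed K) (S : Finset (E d)) (w : E d → ℝ)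
    (c : E d) : IsClosed (Lag K S w c) := by
  have : Lag K S w c = K ∩ ⋂ c' ∈ S, {x : E d | ⟪x, c'⟫ - w c' ≤ ⟪x, c⟫ - w c} := by
    ext x
    simp [Lag]
  rw [this]
  refine hK.inter (isClosed_biInter fun c' _ => ?_)
  exact isClosed_le (by fun_prop) (by fun_prop)

/-- the tie set of the atom `c` -/
def ties (S : Finset (E d)) (w : E d → ℝ) (c : E d) : Set (E d) :=
  ⋃ c' ∈ (S.erase c), {x : E d | ⟪x, c' - c⟫ = w c' - w c}

theorem rho_ties {K : Set (E d)} (S : Finset (E d)) (w : E d → ℝ) (c : E d) :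
    (uniformProbOn K) (ties S w c) = 0 := by
  unfold ties
  refine (measure_biUnion_null_iff (Finset.countable_toSet _)).mpr ?_
  intro c' hc'
  have hne : c' - c ≠ 0 := sub_ne_zero.mpr (Finset.ne_of_mem_erase hc')
  exact rho_hyperplane (c' - c) hne _

end ContGMAux

open ContGMAux in
/-- Cell masses depend continuously on the weights. -/
theorem continuous_gM {K : Set (E d)} (hK : Body K) (S : Finset (E d)) (c : E d) (hc : c ∈ S)
    (w : ℕ → E d → ℝ) (w0 : E d → ℝ) (hw : ∀ a ∈ S, Tendsto (fun k => w k a) atTop (𝓝 (w0 a))) :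
    Tendsto (fun k => gM K S (w k) c) atTop (𝓝 (gM K S w0 c)) := by
  have := rho_prob hK
  have hKc : IsClosed K := hK.compact.isClosed
  have hmeas : ∀ w' : E d → ℝ, MeasurableSet (Lag K S w' c) :=
    fun w' => (isClosed_Lag' hKc S w' c).measurableSet
  -- a.e. convergence of the indicators
  have hae : ∀ᵐ x ∂(uniformProbOn K), ∀ᶠ k in atTop, (x ∈ Lag K S (w k) c ↔ x ∈ Lag K S w0 c) := by
    have hnull : ∀ᵐ x ∂(uniformProbOn K), x ∉ ties S w0 c := by
      rw [ae_iff]
      simpa using rho_ties (K := K) S w0 c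
    filter_upwards [hnull] with x hx
    have hwc := hw c hc
    by_cases hxL : x ∈ Lag K S w0 c
    · -- strict inequalities persist
      have hstrict : ∀ c' ∈ S, ∀ᶠ k in atTop, ⟪x, c'⟫ - w k c' ≤ ⟪x, c⟫ - w k c := by
        intro c' hc'
        by_cases hcc : c' = c
        · subst hcc
          exact Eventually.of_forall fun k => le_refl _
        · have hlt : ⟪x, c'⟫ - w0 c' < ⟪x, c⟫ - w0 c := by
            refine lt_of_le_of_ne (hxL.2 c' hc') ?_
            intro heq
            apply hx
            simp only [ties, Set.mem_iUnion, Set.mem_ofPred_eq]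
            refine ⟨c', Finset.mem_erase.mpr ⟨hcc, hc'⟩, ?_⟩
            rw [inner_sub_right]
            linarith
          have hlim : Tendsto (fun k => (⟪x, c⟫ - w k c) - (⟪x, c'⟫ - w k c')) atTop
              (𝓝 ((⟪x, c⟫ - w0 c) - (⟪x, c'⟫ - w0 c'))) :=
            (tendsto_const_nhds.sub hwc).sub (tendsto_const_nhds.sub (hw c' hc'))
          have hpos : 0 < (⟪x, c⟫ - w0 c) - (⟪x, c'⟫ - w0 c') := by linarith
          filter_upwards [hlim.eventually (lt_mem_nhds hpos)] with k hk
          linarith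
      have hall : ∀ᶠ k in atTop, ∀ c' ∈ S, ⟪x, c'⟫ - w k c' ≤ ⟪x, c⟫ - w k c :=
        (Filter.eventually_all_finset S).mpr hstrict
      filter_upwards [hall] with k hk
      exact ⟨fun _ => hxL, fun _ => ⟨hxL.1, hk⟩⟩
    · by_cases hxK : x ∈ K
      · -- some strict reverse inequality persists
        have : ∃ c' ∈ S, ⟪x, c⟫ - w0 c < ⟪x, c'⟫ - w0 c' := by
          by_contra hcon
          push Not at hcon
          exact hxL ⟨hxK, hcon⟩
        obtain ⟨c', hc', hlt⟩ := this
        have hlim : Tendsto (fun k => (⟪x, c'⟫ - w k c') - (⟪x, c⟫ - w k c)) atTop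
            (𝓝 ((⟪x, c'⟫ - w0 c') - (⟪x, c⟫ - w0 c))) :=
          (tendsto_const_nhds.sub (hw c' hc')).sub (tendsto_const_nhds.sub hwc)
        have hpos : 0 < (⟪x, c'⟫ - w0 c') - (⟪x, c⟫ - w0 c) := by linarith
        filter_upwards [hlim.eventually (lt_mem_nhds hpos)] with k hk
        refine ⟨fun h => ?_, fun h => absurd h hxL⟩
        have := h.2 c' hc'
        linarith
      · exact Eventually.of_forall fun k => ⟨fun h => absurd h.1 hxK, fun h => absurd h.1 hxK⟩
  have hlim := tendsto_measure_of_ae_tendsto_indicator_of_isFiniteMeasure (μ := uniformProbOn K)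
    atTop (hmeas w0) (fun k => hmeas (w k)) hae
  unfold gM
  exact (ENNReal.tendsto_toReal (measure_ne_top _ _)).comp hlim

end Crest.Agent.Helper75.OT
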