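/-
Row 82 (S0109), package (A)-nD, part 1: the one-dimensional interpolation inequality in
"almost everywhere" form, derived from the everywhere form `H1D` (package (A)-1D).
Mathlib only.
-/
import Mathlib

set_option autoImplicit false
open MeasureTheory Set Filter Topology
open scoped ENNReal

namespace Crest.Agent.Helper59.OT

/-- The 1-D interpolation inequality (everywhere-subgradient form) with absolute constant `C₁`:
for `f, g` on `[a,b]` with subgradient selections `p, q` bounded by `M`,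
`∫ (p - q)² ≤ C₁ M^(4/3) (∫ (f - g)²)^(1/3)`. -/
def H1D (C₁ : ℝ) : Prop :=
  ∀ (a b M : ℝ) (f g p q : ℝ → ℝ), a ≤ b → 0 ≤ M →
    (∀ x ∈ Icc a b, ∀ y ∈ Icc a b, f x + p x * (y - x) ≤ f y) →
    (∀ x ∈ Icc a b, ∀ y ∈ Icc a b, g x + q x * (y - x) ≤ g y) →
    (∀ x ∈ Icc a b, |p x| ≤ M) → (∀ x ∈ Icc a b, |q x| ≤ M) →
    ∫⁻ x in Icc a b, ENNReal.ofReal ((p x - q x) ^ 2) ≤
      ENNReal.ofReal (C₁ * M ^ (4 / 3 : ℝ)) *
        (∫⁻ x in Icc a b, ENNReal.ofReal ((f x - g x) ^ 2)) ^ (1 / 3 : ℝ)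

/-- Envelope: from subgradient data on a nonempty set `D` build a function on all of `ℝ`
with an everywhere-defined bounded subgradient selection, agreeing with the data on `D`. -/
theorem exists_envelope (D : Set ℝ) (hD : D.Nonempty) (M : ℝ) (f p : ℝ → ℝ)
    (hp : ∀ x ∈ D, |p x| ≤ M)
    (hsub : ∀ x ∈ D, ∀ y ∈ D, f x + p x * (y - x) ≤ f y) :
    ∃ (f' p' : ℝ → ℝ), (∀ x ∈ D, f' x = f x) ∧ (∀ x ∈ D, p' x = p x) ∧
      (∀ x, |p' x| ≤ M) ∧ (∀ x y, f' x + p' x * (y - x) ≤ f' y) := by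
  classical
  obtain ⟨t₀, ht₀⟩ := hD
  have hM : 0 ≤ M := (abs_nonneg _).trans (hp t₀ ht₀)
  have : Nonempty D := ⟨⟨t₀, ht₀⟩⟩
  -- the envelope
  set F : ℝ → ℝ := fun s => ⨆ t : D, (f t + p t * (s - t)) with hF
  have hbdd : ∀ s, BddAbove (range fun t : D => (f t + p t * (s - t))) := by
    intro s
    refine ⟨f t₀ + M * |s - t₀|, ?_⟩
    rintro _ ⟨⟨t, ht⟩, rfl⟩
    have h1 := hsub t ht t₀ ht₀
    have h2 : p t * (s - t₀) ≤ M * |s - t₀| := by
      calc p t * (s - t₀) ≤ |p t * (s - t₀)| := le_abs_self _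
        _ = |p t| * |s - t₀| := abs_mul _ _
        _ ≤ M * |s - t₀| := mul_le_mul_of_nonneg_right (hp t ht) (abs_nonneg _)
    show f t + p t * (s - t) ≤ f t₀ + M * |s - t₀|
    nlinarith [h1, h2]
  have hge : ∀ s, ∀ t ∈ D, f t + p t * (s - t) ≤ F s := by
    intro s t ht
    exact le_ciSup (hbdd s) ⟨t, ht⟩
  have hFD : ∀ x ∈ D, F x = f x := by
    intro x hx
    apply le_antisymm
    · apply ciSup_le
      rintro ⟨t, ht⟩
      exact hsub t ht x hx
    · have := hge x x hx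
      simpa using this
  -- subgradient at points of D
  have hsubD : ∀ x ∈ D, ∀ y, F x + p x * (y - x) ≤ F y := by
    intro x hx y
    rw [hFD x hx]
    exact hge y x hx
  -- subgradient at an arbitrary point
  have hex : ∀ s₀ : ℝ, ∃ c : ℝ, |c| ≤ M ∧ ∀ y, F s₀ + c * (y - s₀) ≤ F y := by
    intro s₀
    have hseq : ∀ n : ℕ, ∃ t : D, F s₀ - 1 / ((n : ℝ) + 1) < f t + p t * (s₀ - t) := by
      intro n
      have hlt : F s₀ - 1 / ((n : ℝ) + 1) < F s₀ := by
        have : (0 : ℝ) < 1 / ((n : ℝ) + 1) := by positivity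
        linarith
      exact exists_lt_of_lt_ciSup hlt
    choose t ht using hseq
    have hmem : ∀ n, p (t n) ∈ Icc (-M) M := fun n => abs_le.mp (hp (t n) (t n).2)
    obtain ⟨c, hc, φ, hφ, hlim⟩ := isCompact_Icc.tendsto_subseq hmem
    refine ⟨c, abs_le.mpr hc, ?_⟩
    intro y
    -- pass to the limit in  F s₀ - 1/(φ n + 1) + p (t (φ n)) * (y - s₀) ≤ F y
    have hineq : ∀ n, F s₀ - 1 / (((φ n : ℕ) : ℝ) + 1) + p (t (φ n)) * (y - s₀) ≤ F y := by
      intro n
      have h1 := ht (φ n)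
      have h2 := hge y (t (φ n)) (t (φ n)).2
      nlinarith [h1, h2]
    have hlim1 : Tendsto (fun n : ℕ => 1 / (((φ n : ℕ) : ℝ) + 1)) atTop (𝓝 0) :=
      (tendsto_one_div_add_atTop_nhds_zero_nat).comp hφ.tendsto_atTop
    have hlim2 : Tendsto (fun n : ℕ => F s₀ - 1 / (((φ n : ℕ) : ℝ) + 1)
        + p (t (φ n)) * (y - s₀)) atTop (𝓝 (F s₀ - 0 + c * (y - s₀))) :=
      (tendsto_const_nhds.sub hlim1).add (hlim.mul_const _)
    have := le_of_tendsto' hlim2 hineq
    simpa using this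
  choose c hc1 hc2 using hex
  refine ⟨F, fun s => if s ∈ D then p s else c s, hFD, ?_, ?_, ?_⟩
  · intro x hx
    simp [hx]
  · intro x
    by_cases hx : x ∈ D
    · simp [hx, hp x hx]
    · simp [hx, hc1 x]
  · intro x y
    by_cases hx : x ∈ D
    · simp only [hx, if_true]
      exact hsubD x hx y
    · simp only [hx, if_false]
      exact hc2 x y

/-- 1-D interpolation, a.e. form on a closed interval: the subgradient data are only given on
a set `D` of full measure in `[a,b]`. -/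
theorem oneD_ae {C₁ : ℝ} (hH : H1D C₁) (a b M : ℝ) (hab : a ≤ b) (hM : 0 ≤ M) (D : Set ℝ)
    (hDn : volume (Icc a b \ D) = 0) (f g p q : ℝ → ℝ)
    (hp : ∀ x ∈ D, |p x| ≤ M) (hq : ∀ x ∈ D, |q x| ≤ M)
    (hf : ∀ x ∈ D, ∀ y ∈ D, f x + p x * (y - x) ≤ f y)
    (hg : ∀ x ∈ D, ∀ y ∈ D, g x + q x * (y - x) ≤ g y) :
    ∫⁻ x in Icc a b, ENNReal.ofReal ((p x - q x) ^ 2) ≤
      ENNReal.ofReal (C₁ * M ^ (4 / 3 : ℝ)) *
        (∫⁻ x in Icc a b, ENNReal.ofReal ((f x - g x) ^ 2)) ^ (1 / 3 : ℝ) := by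
  by_cases hDe : D.Nonempty
  · obtain ⟨f', p', hf'D, hp'D, hp'M, hf'sub⟩ := exists_envelope D hDe M f p hp hf
    obtain ⟨g', q', hg'D, hq'D, hq'M, hg'sub⟩ := exists_envelope D hDe M g q hq hg
    have key := hH a b M f' g' p' q' hab hM (fun x _ y _ => hf'sub x y)
      (fun x _ y _ => hg'sub x y) (fun x _ => hp'M x) (fun x _ => hq'M x)
    have hae : ∀ᵐ x ∂(volume.restrict (Icc a b)), x ∈ D := by
      rw [ae_restrict_iff' measurableSet_Icc]
      rw [ae_iff]
      refine measure_mono_null ?_ hDn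
      intro x hx
      simp only [Set.mem_ofPred_eq, Classical.not_imp] at hx
      exact ⟨hx.1, hx.2⟩
    have e1 : ∫⁻ x in Icc a b, ENNReal.ofReal ((p x - q x) ^ 2)
        = ∫⁻ x in Icc a b, ENNReal.ofReal ((p' x - q' x) ^ 2) := by
      apply lintegral_congr_ae
      filter_upwards [hae] with x hx
      rw [hp'D x hx, hq'D x hx]
    have e2 : ∫⁻ x in Icc a b, ENNReal.ofReal ((f x - g x) ^ 2)
        = ∫⁻ x in Icc a b, ENNReal.ofReal ((f' x - g' x) ^ 2) := by
      apply lintegral_congr_ae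
      filter_upwards [hae] with x hx
      rw [hf'D x hx, hg'D x hx]
    rw [e1, e2]
    exact key
  · have hDempty : D = ∅ := not_nonempty_iff_eq_empty.mp hDe
    have h0 : volume (Icc a b) = 0 := by simpa [hDempty] using hDn
    have : volume.restrict (Icc a b) = 0 := Measure.restrict_eq_zero.mpr h0
    rw [this]
    simp

/-- 1-D interpolation, a.e. form on a bounded order-connected set `S` (a slice of a convex
body by a line): the subgradient data are only given on `D ⊆ S` of full measure in `S`. -/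
theorem oneD_slice {C₁ : ℝ} (hH : H1D C₁) (S D : Set ℝ) (hSc : S.OrdConnected)
    (hSb : Bornology.IsBounded S) (hDn : volume (S \ D) = 0) (M : ℝ) (hM : 0 ≤ M)
    (f g p q : ℝ → ℝ)
    (hp : ∀ x ∈ D, |p x| ≤ M) (hq : ∀ x ∈ D, |q x| ≤ M)
    (hf : ∀ x ∈ D, ∀ y ∈ D, f x + p x * (y - x) ≤ f y)
    (hg : ∀ x ∈ D, ∀ y ∈ D, g x + q x * (y - x) ≤ g y) :
    ∫⁻ x in S, ENNReal.ofReal ((p x - q x) ^ 2) ≤
      ENNReal.ofReal (C₁ * M ^ (4 / 3 : ℝ)) *
        (∫⁻ x in S, ENNReal.ofReal ((f x - g x) ^ 2)) ^ (1 / 3 : ℝ) := by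
  by_cases hSe : S.Nonempty
  · set a := sInf S with ha
    set b := sSup S with hb
    have hbb : BddBelow S := hSb.bddBelow
    have hba : BddAbove S := hSb.bddAbove
    have hsub : S ⊆ Icc a b := fun x hx => ⟨csInf_le hbb hx, le_csSup hba hx⟩
    have hab : a ≤ b := by
      obtain ⟨x, hx⟩ := hSe
      exact (hsub hx).1.trans (hsub hx).2
    have hIoo : Ioo a b ⊆ S := by
      intro x hx
      obtain ⟨s₁, hs₁, hs₁x⟩ := exists_lt_of_csInf_lt hSe hx.1
      obtain ⟨s₂, hs₂, hs₂x⟩ := exists_lt_of_lt_csSup hSe hx.2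
      exact hSc.out hs₁ hs₂ ⟨hs₁x.le, hs₂x.le⟩
    have hdiff : volume (Icc a b \ S) = 0 := by
      refine measure_mono_null (t := ({a, b} : Set ℝ)) ?_ ?_
      · intro x hx
        by_contra hne
        simp only [mem_insert_iff, mem_singleton_iff, not_or] at hne
        have hx1 : a < x := lt_of_le_of_ne hx.1.1 (Ne.symm hne.1)
        have hx2 : x < b := lt_of_le_of_ne hx.1.2 hne.2
        exact hx.2 (hIoo ⟨hx1, hx2⟩)
      · exact (Set.toFinite {a, b}).measure_zero _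
    have hSI : S =ᵐ[volume] Icc a b := by
      rw [ae_eq_set]
      refine ⟨?_, hdiff⟩
      rw [Set.sdiff_eq_empty.mpr hsub]
      exact measure_empty
    have hres : volume.restrict S = volume.restrict (Icc a b) := Measure.restrict_congr_set hSI
    have hDn' : volume (Icc a b \ D) = 0 := by
      refine measure_mono_null (t := (Icc a b \ S) ∪ (S \ D)) ?_ ?_
      · intro x hx
        by_cases hxS : x ∈ S
        · exact Or.inr ⟨hxS, hx.2⟩
        · exact Or.inl ⟨hx.1, hxS⟩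
      · exact measure_union_null hdiff hDn
    rw [hres]
    exact oneD_ae hH a b M hab hM D hDn' f g p q hp hq hf hg
  · have : S = ∅ := not_nonempty_iff_eq_empty.mp hSe
    subst this
    simp

end Crest.Agent.Helper59.OT
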