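/-
Row 82 (S0109), package (A)-nD, part 2: slicing `EuclideanSpace ℝ (Fin (n+1))` along a
coordinate direction (Tonelli). Mathlib only.
-/
import Mathlib

set_option autoImplicit false
open MeasureTheory Set Filter Topology
open scoped ENNReal

namespace Crest.Agent.Helper59.OT

variable {n : ℕ}

/-- The measurable equivalence `ℝ × ℝⁿ ≃ᵐ ℝⁿ⁺¹` inserting the first component as `i`-th
coordinate. -/
noncomputable def lineEquiv (i : Fin (n + 1)) :
    ℝ × (Fin n → ℝ) ≃ᵐ EuclideanSpace ℝ (Fin (n + 1)) :=
  (MeasurableEquiv.piFinSuccAbove (fun _ : Fin (n + 1) => ℝ) i).symm.trans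
    (MeasurableEquiv.toLp 2 (Fin (n + 1) → ℝ))

/-- The point on the `i`-th coordinate line through `x'` with `i`-th coordinate `t`. -/
noncomputable def line (i : Fin (n + 1)) (x' : Fin n → ℝ) (t : ℝ) :
    EuclideanSpace ℝ (Fin (n + 1)) :=
  lineEquiv i (t, x')

theorem line_def (i : Fin (n + 1)) (x' : Fin n → ℝ) (t : ℝ) :
    line i x' t = WithLp.toLp 2 (Fin.insertNth i t x') := rfl

@[simp] theorem line_apply_self (i : Fin (n + 1)) (x' : Fin n → ℝ) (t : ℝ) :
    line i x' t i = t := by
  simp [line_def]

@[simp] theorem line_apply_succAbove (i : Fin (n + 1)) (x' : Fin n → ℝ) (t : ℝ) (j : Fin n) :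
    line i x' t (i.succAbove j) = x' j := by
  simp [line_def]

theorem measurePreserving_lineEquiv (i : Fin (n + 1)) :
    MeasurePreserving (lineEquiv i) volume volume := by
  unfold lineEquiv
  exact ((volume_preserving_piFinSuccAbove (fun _ : Fin (n + 1) => ℝ) i).symm _).trans
    (PiLp.volume_preserving_toLp (Fin (n + 1)))

theorem measurable_line (i : Fin (n + 1)) (x' : Fin n → ℝ) : Measurable (line i x') := by
  unfold line
  exact (lineEquiv i).measurable.comp (measurable_id.prodMk measurable_const)

/-- Inner product against the difference of two points of a coordinate line. -/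
theorem inner_line_sub (i : Fin (n + 1)) (x' : Fin n → ℝ) (s t : ℝ)
    (v : EuclideanSpace ℝ (Fin (n + 1))) :
    inner ℝ v (line i x' s - line i x' t) = v i * (s - t) := by
  rw [PiLp.inner_apply, Fin.sum_univ_succAbove _ i]
  simp [line_def, mul_comm]

/-- Tonelli along the `i`-th coordinate direction. -/
theorem lintegral_eq_lintegral_line (i : Fin (n + 1))
    (h : EuclideanSpace ℝ (Fin (n + 1)) → ℝ≥0∞) (hh : Measurable h) :
    ∫⁻ x, h x = ∫⁻ x' : Fin n → ℝ, ∫⁻ t : ℝ, h (line i x' t) := by
  have e1 : ∫⁻ x, h x = ∫⁻ z : ℝ × (Fin n → ℝ), h (lineEquiv i z) :=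
    ((measurePreserving_lineEquiv i).lintegral_comp hh).symm
  rw [e1, Measure.volume_eq_prod]
  exact lintegral_prod_symm (fun z => h (lineEquiv i z))
    (hh.comp (lineEquiv i).measurable).aemeasurable

/-- The slice of `K` by the `i`-th coordinate line through `x'`. -/
def slice (i : Fin (n + 1)) (K : Set (EuclideanSpace ℝ (Fin (n + 1)))) (x' : Fin n → ℝ) :
    Set ℝ :=
  {t | line i x' t ∈ K}

theorem measurableSet_slice (i : Fin (n + 1)) {K : Set (EuclideanSpace ℝ (Fin (n + 1)))}
    (hK : MeasurableSet K) (x' : Fin n → ℝ) : MeasurableSet (slice i K x') :=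
  measurable_line i x' hK

/-- Tonelli along the `i`-th coordinate direction for set integrals. -/
theorem setLIntegral_eq_lintegral_slice (i : Fin (n + 1))
    {K : Set (EuclideanSpace ℝ (Fin (n + 1)))} (hK : MeasurableSet K)
    (h : EuclideanSpace ℝ (Fin (n + 1)) → ℝ≥0∞) (hh : Measurable h) :
    ∫⁻ x in K, h x = ∫⁻ x' : Fin n → ℝ, ∫⁻ t in slice i K x', h (line i x' t) := by
  rw [← lintegral_indicator hK, lintegral_eq_lintegral_line i _ (hh.indicator hK)]
  refine lintegral_congr fun x' => ?_
  rw [← lintegral_indicator (measurableSet_slice i hK x')]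
  refine lintegral_congr fun t => ?_
  by_cases ht : line i x' t ∈ K
  · rw [indicator_of_mem ht, indicator_of_mem (show t ∈ slice i K x' from ht)]
  · rw [indicator_of_notMem ht, indicator_of_notMem (show t ∉ slice i K x' from ht)]

/-- Measurability of the inner integral of a slice integral. -/
theorem measurable_lintegral_slice (i : Fin (n + 1))
    {K : Set (EuclideanSpace ℝ (Fin (n + 1)))} (hK : MeasurableSet K)
    (h : EuclideanSpace ℝ (Fin (n + 1)) → ℝ≥0∞) (hh : Measurable h) :
    Measurable fun x' : Fin n → ℝ => ∫⁻ t in slice i K x', h (line i x' t) := by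
  have h1 : Measurable fun z : ℝ × (Fin n → ℝ) => K.indicator h (lineEquiv i z) :=
    (hh.indicator hK).comp (lineEquiv i).measurable
  have h2 := h1.lintegral_prod_left' (μ := (volume : Measure ℝ))
  convert h2 using 2 with x'
  rw [← lintegral_indicator (measurableSet_slice i hK x')]
  refine lintegral_congr fun t => ?_
  by_cases ht : line i x' t ∈ K
  · rw [indicator_of_mem (show t ∈ slice i K x' from ht)]
    exact (indicator_of_mem (show lineEquiv i (t, x') ∈ K from ht) h).symm
  · rw [indicator_of_notMem (show t ∉ slice i K x' from ht)]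
    exact (indicator_of_notMem (show lineEquiv i (t, x') ∉ K from ht) h).symm

/-- A property holding a.e. on `K` holds a.e. on a.e. slice. -/
theorem ae_slice_of_ae (i : Fin (n + 1)) {K : Set (EuclideanSpace ℝ (Fin (n + 1)))}
    (hK : MeasurableSet K) (P : EuclideanSpace ℝ (Fin (n + 1)) → Prop)
    (hP : ∀ᵐ x ∂(volume.restrict K), P x) :
    ∀ᵐ x' : Fin n → ℝ, volume (slice i K x' \ {t | P (line i x' t)}) = 0 := by
  -- the exceptional set and a measurable null superset
  have hN : volume {x | x ∈ K ∧ ¬ P x} = 0 := by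
    have h1 := ae_iff.mp ((ae_restrict_iff' hK).mp hP)
    refine measure_mono_null ?_ h1
    intro x hx
    simp only [Set.mem_ofPred_eq, Classical.not_imp]
    exact hx
  obtain ⟨N', hNN', hN'm, hN'0⟩ := exists_measurable_superset_of_null hN
  have h0 : ∫⁻ x, N'.indicator (fun _ => (1 : ℝ≥0∞)) x = 0 := by
    rw [lintegral_indicator hN'm]
    simp [hN'0]
  rw [lintegral_eq_lintegral_line i _ (measurable_const.indicator hN'm)] at h0
  have hmeas : Measurable fun x' : Fin n → ℝ =>
      ∫⁻ t : ℝ, N'.indicator (fun _ => (1 : ℝ≥0∞)) (line i x' t) := by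
    have h1 : Measurable fun z : ℝ × (Fin n → ℝ) =>
        N'.indicator (fun _ => (1 : ℝ≥0∞)) (lineEquiv i z) :=
      (measurable_const.indicator hN'm).comp (lineEquiv i).measurable
    exact h1.lintegral_prod_left' (μ := (volume : Measure ℝ))
  have h1 := (lintegral_eq_zero_iff hmeas).mp h0
  filter_upwards [h1] with x' hx'
  have hx'2 : ∫⁻ t : ℝ, N'.indicator (fun _ => (1 : ℝ≥0∞)) (line i x' t) = 0 := hx'
  have hset : ∫⁻ t : ℝ, N'.indicator (fun _ => (1 : ℝ≥0∞)) (line i x' t)
      = volume (line i x' ⁻¹' N') := by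
    have : (fun t : ℝ => N'.indicator (fun _ => (1 : ℝ≥0∞)) (line i x' t))
        = (line i x' ⁻¹' N').indicator (fun _ => (1 : ℝ≥0∞)) := by
      funext t
      by_cases ht : line i x' t ∈ N'
      · rw [indicator_of_mem ht, indicator_of_mem (show t ∈ line i x' ⁻¹' N' from ht)]
      · rw [indicator_of_notMem ht, indicator_of_notMem (show t ∉ line i x' ⁻¹' N' from ht)]
    rw [this, lintegral_indicator (measurable_line i x' hN'm)]
    simp
  rw [hset] at hx'2
  refine measure_mono_null ?_ hx'2
  intro t ht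
  exact hNN' ⟨ht.1, ht.2⟩

end Crest.Agent.Helper59.OT
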