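/-
Row 82 (S0109), package (A)-nD, part 3: the d-dimensional interpolation inequality
`∫_K |F - G|² ≤ C (∫_K (f - g)²)^(1/3)` for a.e.-subgradient selections `F, G` of `f, g` on a
bounded convex measurable `K`, from the 1-D inequality `H1D`.
-/
import Crest.Agent.Helper59.OT.Line
import Crest.Agent.Helper59.OT.Slice

set_option autoImplicit false
open MeasureTheory Set Filter Topology
open scoped ENNReal

namespace Crest.Agent.Helper59.OT

variable {n : ℕ}

theorem abs_apply_le_norm' {m : ℕ} (v : EuclideanSpace ℝ (Fin m)) (i : Fin m) : |v i| ≤ ‖v‖ := by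
  have := PiLp.norm_apply_le v i
  simpa [Real.norm_eq_abs] using this

theorem line_combo (i : Fin (n + 1)) (x' : Fin n → ℝ) (s t a b : ℝ) (hab : a + b = 1) :
    line i x' (a * s + b * t) = a • line i x' s + b • line i x' t := by
  ext j
  rcases Fin.eq_self_or_eq_succAbove i j with rfl | ⟨k, rfl⟩
  · simp
  · simp only [line_apply_succAbove, PiLp.add_apply, PiLp.smul_apply, smul_eq_mul]
    rw [← add_mul, hab, one_mul]

theorem convex_slice (i : Fin (n + 1)) {K : Set (EuclideanSpace ℝ (Fin (n + 1)))}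
    (hKc : Convex ℝ K) (x' : Fin n → ℝ) : Convex ℝ (slice i K x') := by
  intro s hs t ht a b ha hb hab
  show line i x' (a • s + b • t) ∈ K
  rw [smul_eq_mul, smul_eq_mul, line_combo i x' s t a b hab]
  exact hKc hs ht ha hb hab

/-- The box containing the projection of `K`. -/
def box (n : ℕ) (R : ℝ) : Set (Fin n → ℝ) := Icc (fun _ => -R) (fun _ => R)

theorem volume_box (n : ℕ) (R : ℝ) : volume (box n R) = ENNReal.ofReal (2 * R) ^ n := by
  unfold box
  rw [Real.volume_Icc_pi]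
  simp [two_mul]

/-- Hölder: `∫ H^(1/3) ≤ (∫ H)^(1/3) μ(univ)^(2/3)`. -/
theorem lintegral_rpow_third_le {α : Type*} [MeasurableSpace α] (μ : Measure α)
    (H : α → ℝ≥0∞) (hH : AEMeasurable H μ) :
    ∫⁻ x, H x ^ (1 / 3 : ℝ) ∂μ ≤ (∫⁻ x, H x ∂μ) ^ (1 / 3 : ℝ) * (μ univ) ^ (2 / 3 : ℝ) := by
  have hpq : (3 : ℝ).HolderConjugate (3 / 2 : ℝ) :=
    Real.holderConjugate_iff.mpr ⟨by norm_num, by norm_num⟩
  have key := ENNReal.lintegral_mul_le_Lp_mul_Lq μ hpq (hH.pow_const (1 / 3 : ℝ))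
    (aemeasurable_const (b := (1 : ℝ≥0∞)))
  simp only [Pi.mul_apply, mul_one, ENNReal.one_rpow, lintegral_one] at key
  have e2 : ∫⁻ x, (H x ^ (1 / 3 : ℝ)) ^ (3 : ℝ) ∂μ = ∫⁻ x, H x ∂μ := by
    refine lintegral_congr fun x => ?_
    rw [← ENNReal.rpow_mul]
    norm_num
  rw [e2] at key
  have e4 : (1 / (3 / 2 : ℝ)) = (2 / 3 : ℝ) := by norm_num
  rw [e4] at key
  exact key

/-- One coordinate of the d-dimensional interpolation inequality. -/
theorem coord_bound {C₁ : ℝ} (hH : H1D C₁) (i : Fin (n + 1))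
    (K : Set (EuclideanSpace ℝ (Fin (n + 1)))) (hKm : MeasurableSet K) (hKc : Convex ℝ K)
    (R M : ℝ) (hR : ∀ x ∈ K, ‖x‖ ≤ R) (hM : 0 ≤ M)
    (f g : EuclideanSpace ℝ (Fin (n + 1)) → ℝ) (hf : Measurable f) (hg : Measurable g)
    (F G : EuclideanSpace ℝ (Fin (n + 1)) → EuclideanSpace ℝ (Fin (n + 1)))
    (hF : Measurable F) (hG : Measurable G)
    (hFs : ∀ᵐ x ∂(volume.restrict K), ‖F x‖ ≤ M ∧ ∀ y ∈ K, f x + inner ℝ (F x) (y - x) ≤ f y)
    (hGs : ∀ᵐ x ∂(volume.restrict K), ‖G x‖ ≤ M ∧ ∀ y ∈ K, g x + inner ℝ (G x) (y - x) ≤ g y) :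
    ∫⁻ x in K, ENNReal.ofReal ((F x i - G x i) ^ 2) ≤
      ENNReal.ofReal (C₁ * M ^ (4 / 3 : ℝ)) * (ENNReal.ofReal (2 * R) ^ n) ^ (2 / 3 : ℝ) *
        (∫⁻ x in K, ENNReal.ofReal ((f x - g x) ^ 2)) ^ (1 / 3 : ℝ) := by
  set hL : EuclideanSpace ℝ (Fin (n + 1)) → ℝ≥0∞ :=
    fun x => ENNReal.ofReal ((F x i - G x i) ^ 2) with hLdef
  set hU : EuclideanSpace ℝ (Fin (n + 1)) → ℝ≥0∞ :=
    fun x => ENNReal.ofReal ((f x - g x) ^ 2) with hUdef
  have hcoord : Measurable fun v : EuclideanSpace ℝ (Fin (n + 1)) => v i :=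
    (EuclideanSpace.proj i).continuous.measurable
  have hLm : Measurable hL :=
    ENNReal.measurable_ofReal.comp (((hcoord.comp hF).sub (hcoord.comp hG)).pow_const 2)
  have hUm : Measurable hU :=
    ENNReal.measurable_ofReal.comp ((hf.sub hg).pow_const 2)
  rw [setLIntegral_eq_lintegral_slice i hKm hL hLm, setLIntegral_eq_lintegral_slice i hKm hU hUm]
  set c : ℝ≥0∞ := ENNReal.ofReal (C₁ * M ^ (4 / 3 : ℝ)) with hc
  set H : (Fin n → ℝ) → ℝ≥0∞ := fun x' => ∫⁻ t in slice i K x', hU (line i x' t) with hHdef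
  have hHm : Measurable H := measurable_lintegral_slice i hKm hU hUm
  -- pointwise a.e. bound on slices
  have hgood := ae_slice_of_ae i hKm _ (hFs.and hGs)
  have hpt : ∀ᵐ x' : Fin n → ℝ, ∫⁻ t in slice i K x', hL (line i x' t) ≤
      (box n R).indicator (fun x' => c * H x' ^ (1 / 3 : ℝ)) x' := by
    filter_upwards [hgood] with x' hx'
    by_cases hSe : (slice i K x').Nonempty
    · obtain ⟨t₀, ht₀⟩ := hSe
      have hbox : x' ∈ box n R := by
        have hn := hR _ ht₀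
        constructor
        · intro j
          have h1 := abs_apply_le_norm' (line i x' t₀) (i.succAbove j)
          rw [line_apply_succAbove] at h1
          have := (abs_le.mp (h1.trans hn)).1
          simpa using this
        · intro j
          have h1 := abs_apply_le_norm' (line i x' t₀) (i.succAbove j)
          rw [line_apply_succAbove] at h1
          have := (abs_le.mp (h1.trans hn)).2
          simpa using this
      rw [indicator_of_mem hbox]
      -- apply the 1-D inequality on the slice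
      set S := slice i K x' with hS
      set D : Set ℝ := S ∩ {t | (‖F (line i x' t)‖ ≤ M ∧ ∀ y ∈ K, f (line i x' t) +
          inner ℝ (F (line i x' t)) (y - line i x' t) ≤ f y) ∧
          (‖G (line i x' t)‖ ≤ M ∧ ∀ y ∈ K, g (line i x' t) +
          inner ℝ (G (line i x' t)) (y - line i x' t) ≤ g y)} with hD
      have hDn : volume (S \ D) = 0 := by
        refine measure_mono_null ?_ hx'
        intro t ht
        refine ⟨ht.1, fun hP => ht.2 ⟨ht.1, hP⟩⟩
      have hSb : Bornology.IsBounded S := by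
        refine (Metric.isBounded_Icc (-R) R).subset ?_
        intro t ht
        have h1 := abs_apply_le_norm' (line i x' t) i
        rw [line_apply_self] at h1
        exact abs_le.mp (h1.trans (hR _ ht))
      have key := oneD_slice hH S D (convex_slice i hKc x').ordConnected hSb hDn M hM
        (fun t => f (line i x' t)) (fun t => g (line i x' t))
        (fun t => F (line i x' t) i) (fun t => G (line i x' t) i)
        (fun t ht => (abs_apply_le_norm' _ i).trans ht.2.1.1)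
        (fun t ht => (abs_apply_le_norm' _ i).trans ht.2.2.1)
        (fun t ht s hs => by
          have h1 := ht.2.1.2 (line i x' s) hs.1
          rw [inner_line_sub] at h1
          exact h1)
        (fun t ht s hs => by
          have h1 := ht.2.2.2 (line i x' s) hs.1
          rw [inner_line_sub] at h1
          exact h1)
      exact key
    · have hS0 : slice i K x' = ∅ := not_nonempty_iff_eq_empty.mp hSe
      rw [hS0]
      simp
  calc ∫⁻ x', ∫⁻ t in slice i K x', hL (line i x' t)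
      ≤ ∫⁻ x', (box n R).indicator (fun x' => c * H x' ^ (1 / 3 : ℝ)) x' := lintegral_mono_ae hpt
    _ = ∫⁻ x' in box n R, c * H x' ^ (1 / 3 : ℝ) := lintegral_indicator measurableSet_Icc _
    _ = c * ∫⁻ x' in box n R, H x' ^ (1 / 3 : ℝ) :=
        lintegral_const_mul _ (hHm.pow_const _)
    _ ≤ c * ((∫⁻ x' in box n R, H x') ^ (1 / 3 : ℝ) *
          (volume.restrict (box n R) univ) ^ (2 / 3 : ℝ)) := by
        gcongr
        exact lintegral_rpow_third_le _ H hHm.aemeasurable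
    _ ≤ c * ((∫⁻ x', H x') ^ (1 / 3 : ℝ) * (ENNReal.ofReal (2 * R) ^ n) ^ (2 / 3 : ℝ)) := by
        gcongr
        · exact Measure.restrict_le_self
        · rw [Measure.restrict_apply_univ, volume_box]
    _ = c * (ENNReal.ofReal (2 * R) ^ n) ^ (2 / 3 : ℝ) * (∫⁻ x', H x') ^ (1 / 3 : ℝ) := by
        ring

theorem enorm_sq_eq_sum {m : ℕ} (v : EuclideanSpace ℝ (Fin m)) :
    ‖v‖ₑ ^ 2 = ∑ i, ENNReal.ofReal ((v i) ^ 2) := by
  rw [← ofReal_norm, ← ENNReal.ofReal_pow (norm_nonneg _), EuclideanSpace.norm_sq_eq,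
    ENNReal.ofReal_sum_of_nonneg (fun i _ => by positivity)]
  simp [Real.norm_eq_abs, sq_abs]

/-- The interpolation inequality in dimension `n + 1`. -/
theorem interp_succ {C₁ : ℝ} (hH : H1D C₁)
    (K : Set (EuclideanSpace ℝ (Fin (n + 1)))) (hKm : MeasurableSet K) (hKc : Convex ℝ K)
    (R M : ℝ) (hR : ∀ x ∈ K, ‖x‖ ≤ R) (hM : 0 ≤ M)
    (f g : EuclideanSpace ℝ (Fin (n + 1)) → ℝ) (hf : Measurable f) (hg : Measurable g)
    (F G : EuclideanSpace ℝ (Fin (n + 1)) → EuclideanSpace ℝ (Fin (n + 1)))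
    (hF : Measurable F) (hG : Measurable G)
    (hFs : ∀ᵐ x ∂(volume.restrict K), ‖F x‖ ≤ M ∧ ∀ y ∈ K, f x + inner ℝ (F x) (y - x) ≤ f y)
    (hGs : ∀ᵐ x ∂(volume.restrict K), ‖G x‖ ≤ M ∧ ∀ y ∈ K, g x + inner ℝ (G x) (y - x) ≤ g y) :
    ∫⁻ x in K, ‖F x - G x‖ₑ ^ 2 ≤
      ((n + 1 : ℕ) : ℝ≥0∞) * (ENNReal.ofReal (C₁ * M ^ (4 / 3 : ℝ)) *
        (ENNReal.ofReal (2 * R) ^ n) ^ (2 / 3 : ℝ)) *
        (∫⁻ x in K, ENNReal.ofReal ((f x - g x) ^ 2)) ^ (1 / 3 : ℝ) := by
  have hcoord : ∀ i : Fin (n + 1), Measurable fun v : EuclideanSpace ℝ (Fin (n + 1)) => v i :=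
    fun i => (EuclideanSpace.proj i).continuous.measurable
  have e1 : ∫⁻ x in K, ‖F x - G x‖ₑ ^ 2
      = ∑ i : Fin (n + 1), ∫⁻ x in K, ENNReal.ofReal ((F x i - G x i) ^ 2) := by
    rw [← lintegral_finsetSum]
    · refine lintegral_congr fun x => ?_
      rw [enorm_sq_eq_sum]
      simp
    · intro i _
      exact ENNReal.measurable_ofReal.comp
        ((((hcoord i).comp hF).sub ((hcoord i).comp hG)).pow_const 2)
  rw [e1]
  calc ∑ i : Fin (n + 1), ∫⁻ x in K, ENNReal.ofReal ((F x i - G x i) ^ 2)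
      ≤ ∑ _i : Fin (n + 1), ENNReal.ofReal (C₁ * M ^ (4 / 3 : ℝ)) *
          (ENNReal.ofReal (2 * R) ^ n) ^ (2 / 3 : ℝ) *
          (∫⁻ x in K, ENNReal.ofReal ((f x - g x) ^ 2)) ^ (1 / 3 : ℝ) :=
        Finset.sum_le_sum fun i _ =>
          coord_bound hH i K hKm hKc R M hR hM f g hf hg F G hF hG hFs hGs
    _ = ((n + 1 : ℕ) : ℝ≥0∞) * (ENNReal.ofReal (C₁ * M ^ (4 / 3 : ℝ)) *
          (ENNReal.ofReal (2 * R) ^ n) ^ (2 / 3 : ℝ)) *
          (∫⁻ x in K, ENNReal.ofReal ((f x - g x) ^ 2)) ^ (1 / 3 : ℝ) := by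
        rw [Finset.sum_const, Finset.card_univ, Fintype.card_fin, nsmul_eq_mul]
        ring

/-- **Package (A)-nD.** The interpolation inequality in every dimension `d`:
for measurable `f, g` on a bounded convex measurable `K ⊆ ℝᵈ` with measurable a.e.-subgradient
selections `F, G` bounded by `M`,
`∫_K |F - G|² ≤ d · C₁ M^(4/3) ((2R)^(d-1))^(2/3) · (∫_K (f - g)²)^(1/3)`. -/
theorem interp_nD {C₁ : ℝ} (hH : H1D C₁) (d : ℕ)
    (K : Set (EuclideanSpace ℝ (Fin d))) (hKm : MeasurableSet K) (hKc : Convex ℝ K)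
    (R M : ℝ) (hR : ∀ x ∈ K, ‖x‖ ≤ R) (hM : 0 ≤ M)
    (f g : EuclideanSpace ℝ (Fin d) → ℝ) (hf : Measurable f) (hg : Measurable g)
    (F G : EuclideanSpace ℝ (Fin d) → EuclideanSpace ℝ (Fin d))
    (hF : Measurable F) (hG : Measurable G)
    (hFs : ∀ᵐ x ∂(volume.restrict K), ‖F x‖ ≤ M ∧ ∀ y ∈ K, f x + inner ℝ (F x) (y - x) ≤ f y)
    (hGs : ∀ᵐ x ∂(volume.restrict K), ‖G x‖ ≤ M ∧ ∀ y ∈ K, g x + inner ℝ (G x) (y - x) ≤ g y) :
    ∫⁻ x in K, ‖F x - G x‖ₑ ^ 2 ≤
      (d : ℝ≥0∞) * (ENNReal.ofReal (C₁ * M ^ (4 / 3 : ℝ)) *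
        (ENNReal.ofReal (2 * R) ^ (d - 1)) ^ (2 / 3 : ℝ)) *
        (∫⁻ x in K, ENNReal.ofReal ((f x - g x) ^ 2)) ^ (1 / 3 : ℝ) := by
  cases d with
  | zero =>
    have : ∀ x, F x - G x = 0 := fun x => Subsingleton.elim _ _
    simp [this]
  | succ n =>
    have := interp_succ hH K hKm hKc R M hR hM f g hf hg F G hF hG hFs hGs
    simpa using this

end Crest.Agent.Helper59.OT
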