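/-
helper59 — key lemma (S)/(B3) for row 82 (S0109), algebraic layer with the constant `300`
required by `Spec.moment_stability`.

`Crest.Agent.Helper77.key_sum` (helper77) proves the summation lemma with the constant `600`.
The loss is in the second-moment step.  Here the second-moment step is redone with
`Λ = 10 R²` and the perspective tilt `κ₀ = 2Q/(3q₀+q₁)`, `κ₁ = 2Q/(q₀+3q₁)`, which gives
`∑ (q₁-q₀)²/(g₀+g₁) ≤ 100 R⁴ ∑ (g₁-g₀)²/(g₀+g₁)`; combined with helper77's first-moment step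
`cellM` (used verbatim) this yields the constant `(12288 + 300)/(171/4) < 300`.
Pure real algebra (no measure theory).
-/
import Crest.Agent.Helper77.KeySAlg

set_option autoImplicit false
open scoped InnerProductSpace

namespace Crest.Agent.Helper59.KeyS

open Crest.Agent.Helper77 (amgm_defect cellM)

theorem sub_sq_le (x y : ℝ) : (-x + y) ^ 2 ≤ 3 / 2 * x ^ 2 + 3 * y ^ 2 := by
  nlinarith [sq_nonneg (x + 2 * y)]

/-- Per-cell second-moment estimate with `Λ = 10 R²`, multiplied-out form (pure algebra).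
The Prékopa–Leindler hypothesis is the family of all tilts `κ₀, κ₁ ∈ (1/2, 2]` with
`(2κ₀-1)(2κ₁-1) ≥ 1`. -/
theorem cellQ_aux {R g0 g1 q0 q1 H : ℝ} (hR : 0 < R) (hg0 : 0 ≤ g0) (hg1 : 0 ≤ g1)
    (hG : 0 < g0 + g1)
    (hq0 : 0 ≤ q0) (hq1 : 0 ≤ q1) (hq0R : q0 ≤ R ^ 2 * g0) (hq1R : q1 ≤ R ^ 2 * g1)
    (hH : 0 ≤ H)
    (hPL : ∀ κ0 κ1 : ℝ, 1 / 2 < κ0 → κ0 ≤ 2 → 1 / 2 < κ1 → κ1 ≤ 2 →
      1 ≤ (2 * κ0 - 1) * (2 * κ1 - 1) →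
      (10 * R ^ 2 * g0 - κ0 * q0) * (10 * R ^ 2 * g1 - κ1 * q1) ≤ H ^ 2) :
    (3 / 2) * (q1 - q0) ^ 2 ≤ 150 * R ^ 4 * (g1 - g0) ^ 2
      - 9 * R ^ 2 * (g0 + g1) * (10 * R ^ 2 * (g0 + g1) - (q0 + q1) - 2 * H) := by
  have hR2 : 0 < R ^ 2 := by positivity
  have hQR : q0 + q1 ≤ R ^ 2 * (g0 + g1) := by linarith
  have h9 : 0 < 9 * R ^ 2 * (g0 + g1) := by positivity
  have hW : 0 ≤ R ^ 4 * (g1 - g0) ^ 2 := by positivity
  rcases (add_nonneg hq0 hq1).eq_or_lt with hQ | hQ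
  · -- no second moment at all: untilted instance
    have h0 : q0 = 0 := by linarith
    have h1 : q1 = 0 := by linarith
    subst h0 h1
    have hpl := hPL 1 1 (by norm_num) (by norm_num) (by norm_num) (by norm_num) (by norm_num)
    simp only [mul_zero, sub_zero] at hpl
    have ha : 0 ≤ 10 * R ^ 2 * g0 := by positivity
    have hb : 0 ≤ 10 * R ^ 2 * g1 := by positivity
    have hpos : 0 < 10 * R ^ 2 * g0 + 10 * R ^ 2 * g1 := by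
      have : 10 * R ^ 2 * g0 + 10 * R ^ 2 * g1 = 10 * R ^ 2 * (g0 + g1) := by ring
      rw [this]; positivity
    have hdef := amgm_defect ha hb hH hpl hpos
    rw [le_div_iff₀ hpos] at hdef
    have e1 : (10 * R ^ 2 * g0 + 10 * R ^ 2 * g1 - 2 * H) * (10 * R ^ 2 * g0 + 10 * R ^ 2 * g1)
        = 10 * (R ^ 2 * (g0 + g1) * (10 * R ^ 2 * (g0 + g1) - 2 * H)) := by ring
    have e2 : (10 * R ^ 2 * g0 - 10 * R ^ 2 * g1) ^ 2 = 100 * (R ^ 4 * (g1 - g0) ^ 2) := by ring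
    rw [e1, e2] at hdef
    have e3 : 9 * R ^ 2 * (g0 + g1) * (10 * R ^ 2 * (g0 + g1) - (0 + 0) - 2 * H)
        = 9 * (R ^ 2 * (g0 + g1) * (10 * R ^ 2 * (g0 + g1) - 2 * H)) := by ring
    rw [e3]
    simp only [sub_self]
    linarith
  · -- perspective tilt
    have hP1 : 0 < 3 * q0 + q1 := by linarith
    have hP2 : 0 < q0 + 3 * q1 := by linarith
    have hP : 0 < (3 * q0 + q1) * (q0 + 3 * q1) := mul_pos hP1 hP2
    have hP1' : q0 * 3 + q1 ≠ 0 := (by linarith : (0 : ℝ) < q0 * 3 + q1).ne'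
    have hP2' : q0 + q1 * 3 ≠ 0 := (by linarith : (0 : ℝ) < q0 + q1 * 3).ne'
    set κ0 : ℝ := 2 * (q0 + q1) / (3 * q0 + q1) with hκ0
    set κ1 : ℝ := 2 * (q0 + q1) / (q0 + 3 * q1) with hκ1
    set ρ : ℝ := 2 * (q0 + q1) ^ 2 / ((3 * q0 + q1) * (q0 + 3 * q1)) with hρ
    have hκ0a : 1 / 2 < κ0 := by
      rw [hκ0, lt_div_iff₀ hP1]; linarith
    have hκ0b : κ0 ≤ 2 := by
      rw [hκ0, div_le_iff₀ hP1]; linarith
    have hκ1a : 1 / 2 < κ1 := by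
      rw [hκ1, lt_div_iff₀ hP2]; linarith
    have hκ1b : κ1 ≤ 2 := by
      rw [hκ1, div_le_iff₀ hP2]; linarith
    have hprod : (2 * κ0 - 1) * (2 * κ1 - 1) = 1 := by
      rw [hκ0, hκ1]; field_simp; ring
    have hpl := hPL κ0 κ1 hκ0a hκ0b hκ1a hκ1b hprod.ge
    have he : κ1 * q1 - κ0 * q0 = ρ * (q1 - q0) := by
      rw [hκ0, hκ1, hρ]; field_simp; ring
    have hgain : ((q0 + q1) - κ0 * q0 - κ1 * q1) * (2 * (q0 + q1)) = ρ * (q1 - q0) ^ 2 := by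
      rw [hκ0, hκ1, hρ]; field_simp; ring
    have hρ1 : 1 / 2 ≤ ρ := by
      rw [hρ, le_div_iff₀ hP]; nlinarith [sq_nonneg (q1 - q0)]
    have hρ2 : ρ ≤ 1 := by
      rw [hρ, div_le_iff₀ hP]; nlinarith [mul_nonneg hq0 hq1, sq_nonneg q0, sq_nonneg q1]
    have hρ0 : 0 ≤ ρ := by linarith
    set γ : ℝ := (q0 + q1) - κ0 * q0 - κ1 * q1 with hγ
    have hγ0 : 0 ≤ γ := by
      have h1 : 0 ≤ γ * (2 * (q0 + q1)) := by
        rw [hgain]; exact mul_nonneg hρ0 (sq_nonneg _)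
      exact nonneg_of_mul_nonneg_left h1 (by linarith)
    have hκq0 : κ0 * q0 ≤ 2 * q0 := mul_le_mul_of_nonneg_right hκ0b hq0
    have hκq1 : κ1 * q1 ≤ 2 * q1 := mul_le_mul_of_nonneg_right hκ1b hq1
    have hg0' : 0 ≤ R ^ 2 * g0 := mul_nonneg hR2.le hg0
    have hg1' : 0 ≤ R ^ 2 * g1 := mul_nonneg hR2.le hg1
    have ha : 0 ≤ 10 * R ^ 2 * g0 - κ0 * q0 := by linarith
    have hb : 0 ≤ 10 * R ^ 2 * g1 - κ1 * q1 := by linarith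
    have hsum : (10 * R ^ 2 * g0 - κ0 * q0) + (10 * R ^ 2 * g1 - κ1 * q1)
        = 10 * R ^ 2 * (g0 + g1) - (q0 + q1) + γ := by rw [hγ]; ring
    have hdiff : (10 * R ^ 2 * g0 - κ0 * q0) - (10 * R ^ 2 * g1 - κ1 * q1)
        = -(10 * R ^ 2 * (g1 - g0)) + ρ * (q1 - q0) := by linear_combination he
    have hsumlb : 9 * R ^ 2 * (g0 + g1)
        ≤ (10 * R ^ 2 * g0 - κ0 * q0) + (10 * R ^ 2 * g1 - κ1 * q1) := by
      rw [hsum]; linarith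
    have hpos : 0 < (10 * R ^ 2 * g0 - κ0 * q0) + (10 * R ^ 2 * g1 - κ1 * q1) :=
      lt_of_lt_of_le h9 hsumlb
    have hdef := amgm_defect ha hb hH hpl hpos
    have hnum : ((10 * R ^ 2 * g0 - κ0 * q0) - (10 * R ^ 2 * g1 - κ1 * q1)) ^ 2
        ≤ 150 * (R ^ 4 * (g1 - g0) ^ 2) + 3 * (ρ ^ 2 * (q1 - q0) ^ 2) := by
      rw [hdiff]
      have h1 := sub_sq_le (10 * R ^ 2 * (g1 - g0)) (ρ * (q1 - q0))
      have h2 : 3 / 2 * (10 * R ^ 2 * (g1 - g0)) ^ 2 + 3 * (ρ * (q1 - q0)) ^ 2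
          = 150 * (R ^ 4 * (g1 - g0) ^ 2) + 3 * (ρ ^ 2 * (q1 - q0) ^ 2) := by ring
      rw [h2] at h1
      exact h1
    have hfrac : ((10 * R ^ 2 * g0 - κ0 * q0) - (10 * R ^ 2 * g1 - κ1 * q1)) ^ 2
        / ((10 * R ^ 2 * g0 - κ0 * q0) + (10 * R ^ 2 * g1 - κ1 * q1))
        ≤ (150 * (R ^ 4 * (g1 - g0) ^ 2) + 3 * (ρ ^ 2 * (q1 - q0) ^ 2))
          / (9 * R ^ 2 * (g0 + g1)) :=
      div_le_div₀ (by positivity) hnum h9 hsumlb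
    have hmain := hdef.trans hfrac
    rw [le_div_iff₀ h9, hsum] at hmain
    -- the gain term
    have hγ9 : 9 / 2 * (ρ * (q1 - q0) ^ 2) ≤ γ * (9 * R ^ 2 * (g0 + g1)) := by
      have h1 : γ * (q0 + q1) ≤ γ * (R ^ 2 * (g0 + g1)) := mul_le_mul_of_nonneg_left hQR hγ0
      have h2 : γ * (2 * (q0 + q1)) = ρ * (q1 - q0) ^ 2 := hgain
      have h3 : γ * (9 * R ^ 2 * (g0 + g1)) = 9 * (γ * (R ^ 2 * (g0 + g1))) := by ring
      have h4 : γ * (2 * (q0 + q1)) = 2 * (γ * (q0 + q1)) := by ring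
      rw [h3]
      rw [h4] at h2
      linarith
    have hρq : 3 / 2 * (q1 - q0) ^ 2
        ≤ 9 / 2 * (ρ * (q1 - q0) ^ 2) - 3 * (ρ ^ 2 * (q1 - q0) ^ 2) := by
      have h1 := mul_nonneg (mul_nonneg (sub_nonneg.2 hρ1) (sub_nonneg.2 hρ2))
        (sq_nonneg (q1 - q0))
      have h2 : (ρ - 1 / 2) * (1 - ρ) * (q1 - q0) ^ 2
          = 3 / 2 * (ρ * (q1 - q0) ^ 2) - ρ ^ 2 * (q1 - q0) ^ 2 - 1 / 2 * (q1 - q0) ^ 2 := by
        ring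
      rw [h2] at h1
      linarith
    have h5 : (10 * R ^ 2 * (g0 + g1) - (q0 + q1) + γ - 2 * H) * (9 * R ^ 2 * (g0 + g1))
        = 9 * R ^ 2 * (g0 + g1) * (10 * R ^ 2 * (g0 + g1) - (q0 + q1) - 2 * H)
          + γ * (9 * R ^ 2 * (g0 + g1)) := by ring
    rw [h5] at hmain
    have h6 : 150 * R ^ 4 * (g1 - g0) ^ 2 = 150 * (R ^ 4 * (g1 - g0) ^ 2) := by ring
    rw [h6]
    linarith

/-- Per-cell second-moment estimate with `Λ = 10 R²`, division form; valid also for null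
cells. -/
theorem cellQ {R g0 g1 q0 q1 H : ℝ} (hR : 0 < R) (hg0 : 0 ≤ g0) (hg1 : 0 ≤ g1)
    (hq0 : 0 ≤ q0) (hq1 : 0 ≤ q1) (hq0R : q0 ≤ R ^ 2 * g0) (hq1R : q1 ≤ R ^ 2 * g1)
    (hH : 0 ≤ H)
    (hPL : ∀ κ0 κ1 : ℝ, 1 / 2 < κ0 → κ0 ≤ 2 → 1 / 2 < κ1 → κ1 ≤ 2 →
      1 ≤ (2 * κ0 - 1) * (2 * κ1 - 1) →
      (10 * R ^ 2 * g0 - κ0 * q0) * (10 * R ^ 2 * g1 - κ1 * q1) ≤ H ^ 2) :
    (3 / 2) * ((q1 - q0) ^ 2 / (g0 + g1)) ≤ 150 * R ^ 4 * ((g1 - g0) ^ 2 / (g0 + g1))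
      - 9 * R ^ 2 * (10 * R ^ 2 * (g0 + g1) - (q0 + q1) - 2 * H) := by
  have hR2 : 0 < R ^ 2 := by positivity
  rcases (add_nonneg hg0 hg1).eq_or_lt with hG | hG
  · have h0 : g0 = 0 := by linarith
    have h1 : g1 = 0 := by linarith
    have hq0' : q0 = 0 := by rw [h0, mul_zero] at hq0R; linarith
    have hq1' : q1 = 0 := by rw [h1, mul_zero] at hq1R; linarith
    rw [h0, h1, hq0', hq1']
    simp only [sub_self, add_zero, div_zero, mul_zero, zero_sub]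
    have : 0 ≤ R ^ 2 * H := mul_nonneg hR2.le hH
    linarith
  · have haux := cellQ_aux hR hg0 hg1 hG hq0 hq1 hq0R hq1R hH hPL
    have e1 : (3 / 2) * ((q1 - q0) ^ 2 / (g0 + g1))
        = ((3 / 2) * (q1 - q0) ^ 2) / (g0 + g1) := by ring
    have e2 : 150 * R ^ 4 * ((g1 - g0) ^ 2 / (g0 + g1))
        - 9 * R ^ 2 * (10 * R ^ 2 * (g0 + g1) - (q0 + q1) - 2 * H)
        = (150 * R ^ 4 * (g1 - g0) ^ 2
          - 9 * R ^ 2 * (g0 + g1) * (10 * R ^ 2 * (g0 + g1) - (q0 + q1) - 2 * H)) / (g0 + g1) := by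
      field_simp
    rw [e1, e2]
    exact div_le_div_of_nonneg_right haux hG.le

variable {E : Type*} [NormedAddCommGroup E] [InnerProductSpace ℝ E]

/-- **Key summation lemma (pure algebra), constant `300`.** Cells indexed by a finite type,
each satisfying the two Prékopa–Leindler families (second moments: `Λ = 10 R²`, all tilts;
first moments: `Λ = 64 R²`, all translations by `‖v‖ ≤ R/2`), with nonnegative total defects: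
the first moments are controlled by the masses. -/
theorem key_sum300 {ι : Type*} [Fintype ι] {R : ℝ} (hR : 0 < R) (g0 g1 q0 q1 Hq Hm : ι → ℝ)
    (m0 m1 : ι → E)
    (hg0 : ∀ i, 0 ≤ g0 i) (hg1 : ∀ i, 0 ≤ g1 i) (hq0 : ∀ i, 0 ≤ q0 i) (hq1 : ∀ i, 0 ≤ q1 i)
    (hq0R : ∀ i, q0 i ≤ R ^ 2 * g0 i) (hq1R : ∀ i, q1 i ≤ R ^ 2 * g1 i)
    (hm0 : ∀ i, ‖m0 i‖ ≤ R * g0 i) (hm1 : ∀ i, ‖m1 i‖ ≤ R * g1 i)
    (hHq : ∀ i, 0 ≤ Hq i) (hHm : ∀ i, 0 ≤ Hm i)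
    (hPLq : ∀ i, ∀ κ0 κ1 : ℝ, 1 / 2 < κ0 → κ0 ≤ 2 → 1 / 2 < κ1 → κ1 ≤ 2 →
      1 ≤ (2 * κ0 - 1) * (2 * κ1 - 1) →
      (10 * R ^ 2 * g0 i - κ0 * q0 i) * (10 * R ^ 2 * g1 i - κ1 * q1 i) ≤ Hq i ^ 2)
    (hPLm : ∀ i, ∀ v : E, ‖v‖ ≤ R / 2 →
      (64 * R ^ 2 * g0 i - (q0 i + 2 * ⟪v, m0 i⟫_ℝ + ‖v‖ ^ 2 * g0 i))
        * (64 * R ^ 2 * g1 i - (q1 i - 2 * ⟪v, m1 i⟫_ℝ + ‖v‖ ^ 2 * g1 i)) ≤ Hm i ^ 2)
    (hsumq : 0 ≤ ∑ i, (10 * R ^ 2 * (g0 i + g1 i) - (q0 i + q1 i) - 2 * Hq i))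
    (hsumm : 0 ≤ ∑ i, (64 * R ^ 2 * (g0 i + g1 i) - (q0 i + q1 i) - 2 * Hm i)) :
    ∑ i, ‖m1 i - m0 i‖ ^ 2 / (g0 i + g1 i)
      ≤ 300 * R ^ 2 * ∑ i, (g1 i - g0 i) ^ 2 / (g0 i + g1 i) := by
  have hR2 : 0 < R ^ 2 := by positivity
  set SM := ∑ i, ‖m1 i - m0 i‖ ^ 2 / (g0 i + g1 i) with hSM
  set SG := ∑ i, (g1 i - g0 i) ^ 2 / (g0 i + g1 i) with hSG
  set SQ := ∑ i, (q1 i - q0 i) ^ 2 / (g0 i + g1 i) with hSQ
  set SDq := ∑ i, (10 * R ^ 2 * (g0 i + g1 i) - (q0 i + q1 i) - 2 * Hq i) with hSDq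
  set SDm := ∑ i, (64 * R ^ 2 * (g0 i + g1 i) - (q0 i + q1 i) - 2 * Hm i) with hSDm
  have hSG0 : 0 ≤ SG := Finset.sum_nonneg (fun i _ =>
    div_nonneg (sq_nonneg _) (add_nonneg (hg0 i) (hg1 i)))
  have hQ : (3 / 2) * SQ ≤ 150 * R ^ 4 * SG - 9 * R ^ 2 * SDq := by
    rw [hSQ, hSG, hSDq, Finset.mul_sum, Finset.mul_sum, Finset.mul_sum, ← Finset.sum_sub_distrib]
    exact Finset.sum_le_sum (fun i _ =>
      cellQ hR (hg0 i) (hg1 i) (hq0 i) (hq1 i) (hq0R i) (hq1R i) (hHq i) (hPLq i))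
  have hM : (171 / 4) * R ^ 2 * SM ≤ 12288 * R ^ 4 * SG + 3 * SQ - 61 * R ^ 2 * SDm := by
    rw [hSM, hSQ, hSG, hSDm, Finset.mul_sum, Finset.mul_sum, Finset.mul_sum, Finset.mul_sum,
      ← Finset.sum_add_distrib, ← Finset.sum_sub_distrib]
    exact Finset.sum_le_sum (fun i _ =>
      cellM hR (hg0 i) (hg1 i) (hq0 i) (hq1 i) (hq0R i) (hq1R i) (hm0 i) (hm1 i) (hHm i)
        (hPLm i))
  have h1 : 0 ≤ R ^ 2 * SDq := mul_nonneg hR2.le hsumq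
  have h1' : 0 ≤ R ^ 2 * SDm := mul_nonneg hR2.le hsumm
  have h2 : 0 ≤ R ^ 4 * SG := mul_nonneg (by positivity) hSG0
  have h3 : R ^ 2 * ((171 / 4) * SM) ≤ R ^ 2 * ((171 / 4) * (300 * R ^ 2 * SG)) := by
    have h4 : R ^ 2 * ((171 / 4) * (300 * R ^ 2 * SG)) = 12825 * (R ^ 4 * SG) := by ring
    rw [h4]
    linarith
  have h5 := le_of_mul_le_mul_left h3 hR2
  linarith

end Crest.Agent.Helper59.KeyS
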